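import Vale.Agent.P167.H638.Gff
import Vale.Agent.P167.H685.Fin
import Vale.Agent.P167.H562.FThm
import Vale.Agent.P167.H45.All
import Vale.Agent.P167.H166.Cross
import Vale.Agent.P167.H259.Fin
import Vale.Agent.P167.H519.Done
import Vale.Agent.P167.H519.Z2

/-!
# P167, `q = 1`: assembly of the blocks
-/

namespace Vale.Agent.P167

open Filter Topology MeasureTheory

theorem crossL' : H45.S_crossL := H166.crossL s_nx s_jump s_step s_two

theorem gauss' : S_gauss := H638.gauss H685.s_id

theorem F_all : S_F1 ∧ S_F2 ∧ S_F3 :=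
  H562.s_F gauss' (H45.s_small crossL') (H45.s_large crossL') H259.s_cls_up H259.s_cls_lo
    H259.s_indep H519.s_ring (H45.s_mom crossL') s_two

theorem onearm' : S_onearm := H519.s_onearm F_all.1

end Vale.Agent.P167
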